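import Vale.Agent.P287D.Oe.St
import Vale.Agent.P287D.Ba.Hy
import Vale.Agent.P287D.In.Int
import Vale.Agent.P287D.Pr.Neg
import Vale.Agent.P287D.Va.Fld
import Vale.Agent.P287D.Pb.Abh
import Vale.Agent.P287D.Lk.Dim

/-!
# P287D, the three ends: the reduction to a Mori fibre space
-/

open Set

noncomputable section

namespace Vale.Agent.P287D.Oe

variable {K : Type} [Field K] [Algebra ℂ K] {n : ℕ} {Λ Γ N B G β : BD K} {f : K} {τ : Pl K}

theorem pq (h : β = G) : β - G ∈ Prn K := by simp [h]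

theorem dim_big (hK : FF K n) (h : Big Λ) : dim Λ = n := by
  rw [dim, h.fld_eq, IntermediateField.topEquiv.trdeg_eq, Pb.ff_trdeg hK, Cardinal.toNat_natCast]

/-- with an effective canonical class, anti-canonical classes are big over big bases only -/
theorem nu (hK : FF K (n + 1)) (bΛ : Big Λ) (d : Dsc Λ Γ) (h : Bdy n Λ Γ)
    (hf : 0 ≤ cn K (n + 1) + dv f) (hb : Big (N - Γ)) : Big N := by
  have e : 0 ≤ Γ + dv f := Pr.hart res' hK d.smp bΛ (d.add (.dv d.smp f)) fun P k => by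
    have a := hf P
    have b := h P k
    simp only [dsc, Pi.add_apply, Pi.sub_apply, Pi.zero_apply] at a b ⊢
    linarith
  refine (hb.add_eff (.of_nonneg e)).congr ?_
  rw [show N - (N - Γ + (Γ + dv f)) = -dv f by abel]
  exact neg_mem (dv_mem_Prn f)

theorem vert (hB : Eff B) (h : ¬ Hor (fld B) τ) : ∃ G, Rep B G ∧ 0 < G τ := by
  obtain ⟨g, hg, k⟩ : ∃ g ∈ fld B, g ∉ τ.ring := by simpa [Hor] using h
  obtain ⟨ε, e, G, r⟩ := (mem_fld hB).1 hg
  exact ⟨G + ε • pld g, by simpa using Rep.add r ((Rep.refl (pld_nonneg g)).smul e.le),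
    add_pos_of_nonneg_of_pos (r.1 τ) (mul_pos e (pld_pos.2 k))⟩

theorem not_on (hK : FF K (n + 1)) (hB : Nef B) (nb : ¬ Big B) (r : Rep B G) (h : 0 < G τ) :
    ¬ On n B τ := fun o => nb ((big_iff_vol hK hB).2 (by
  have i := In.hy.isb n K hK
  have a := In.hy.cons_mono hK (b := fun _ => B) (In.IsB.smul (In.isB_δ τ) (G τ))
    (i G (r.car hB.car)) (Eff.of_nonneg (sub_nonneg.2 fun P => by
      by_cases e : P = τ
      · simp [e, Pl.δ_self]
      · simpa [Pl.δ_ne e] using r.1 P)).psef fun _ => hB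
  rw [In.cons_smul, In.I_δ, In.hy.cons_congr hK (i B hB.car) r.2 fun _ => hB.car] at a
  exact (mul_pos h o).trans_le a))

theorem eff_vert (hK : FF K (n + 1)) (bΛ : Big Λ) (d : Dsc Λ B) (u : Hull n Λ τ.δ β) (r : Rep B G) :
    Eff (B - G τ • β) :=
  (Eff.of_nonneg (Pr.hart res' hK d.smp bΛ ((d.congr r.2).sub (u.1.smul (G τ))) fun P k => by
    by_cases e : P = τ
    · simp [e, u.2 τ (e ▸ k), Pl.δ_self]
    · simpa [u.2 P k, Pl.δ_ne e] using r.1 P)).congr (by simpa using neg_mem r.2)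

theorem adj_bdy (a3 : A3) (hK : FF K (n + 2)) (t : Term (n + 1) Λ G) (o : On (n + 1) Λ τ)
    (u : Hull (n + 1) Λ τ.δ β) : Bdy n (res τ Λ) (adj (n + 1) τ (G + β)) :=
  a3 n K hK Λ τ t.smp t.big o _ (t.hull.1.add u.1) (fun P k => by
    simpa [dsc, t.hull.2 P k, u.2 P k] using τ.δ_nonneg P)
    (by simp [dsc, t.hull.2 τ o, u.2 τ o, Pl.δ_self])

/-- a surface with an effective canonical class is horizontal -/
theorem hor (a1 : A1) (a3 : A3) (hK : FF K (n + 2)) (m : Mm.Mf (n + 1) Λ G B)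
    (o : On (n + 1) Λ τ) (u : Mm.Rk1 (n + 1) Λ G B τ.δ β) {g : τ.κ}
    (hg : 0 ≤ cn τ.κ (n + 1) + dv g) : Hor (fld B) τ := by
  by_contra v
  obtain ⟨D, r, p⟩ := vert m.smp.eff v
  obtain ⟨u, a, ha⟩ := u
  obtain ⟨c, hc⟩ := m.amp
  have bA := hc.big_iff.1 m.term.big
  rcases lt_or_ge a 0 with a0 | a0
  · obtain ⟨x, x0, hx⟩ := (ha.add ((Dsc.refl m.smp).smul (a * c))).exists_add
    have := (((bA.smul (neg_pos.2 a0)).add_smp (hx x le_rfl)).smul p).add_eff
      (eff_vert hK m.term.big m.des u r)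
    exact m.nb (Big.of_smul (c := 1 + D τ * x) (by positivity) (this.congr (pq (by module))))
  · obtain ⟨x, x0, hx⟩ := (ha.neg.sub ((Dsc.refl m.smp).smul ((1 + a) * c))).exists_add
    have d := m.term.hull.1.add u.1
    have k : AmpOn Λ (x • B - (G + β)) := ((hc.smul (c := 1 + a) (by positivity)).add_smp
      (hx x le_rfl) (m.des.trans ((ha.neg.sub ((Dsc.refl m.smp).smul _)).add
        ((Dsc.refl m.smp).smul x)))).congr (pq (by module))
    have b := (on_iff_big hK τ k.nef).1 ((Pr.on_iff res' hK m.term.smp k).1 o)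
    rw [In.hy.res_sub hK τ (Submodule.smul_mem _ x m.smp.car) d.car,
      In.hy.smul _ K hK τ x B m.smp.car] at b
    have e := (a1 _ K hK τ _ d.car).2.1
    refine not_on hK m.smp.nef m.nb r p ((on_iff_big hK τ m.smp.nef).2 (Big.of_smul x0
      (nu (In.hy.rsd _ K hK τ) ((on_iff_big hK τ m.term.smp.nef).1 o)
        ((In.hy.res_dsc hK τ d).congr e) (adj_bdy a3 hK m.term o u) hg (b.congr ?_))))
    simpa using neg_mem e

theorem red (ax : Ax) (mfs : Mm.MFS) : RED := by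
  intro K _ _ τ X Γ T f h f0 hf
  obtain ⟨s, -, hs⟩ := h.sT.exists_ampOn
  obtain ⟨ε, e, k⟩ := hs.2
  have e' := inv_pos.2 e
  have q : ε⁻¹ • mx s - Γ = T - Γ + ε⁻¹ • (mx s - ε • T) := by
    rw [smul_sub, smul_smul, inv_mul_cancel₀ e.ne']
    module
  have a : Smp (ε⁻¹ • mx s - Γ) := q ▸ h.amp.smp.add (k.smul e'.le)
  have b : Big (ε⁻¹ • mx s - Γ) := q ▸ (h.amp.big_iff.1 h.big).add_smp (k.smul e'.le)
  obtain ⟨Y, G, B, -, m, rG, dB, bd, -, -, rk⟩ := mfs 2 K h.ff X Γ s ε⁻¹ ∅ h.smp h.big h.des h.bdy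
    (h.dT.trans hs.1) (fun c => by linarith [dim_big h.ff (hs.big_iff.2 c), h.dm]) a b finite_empty
  have o : On 2 Y τ := by_contra fun o => f0 (by
    have := mem_H0.2 (show Sec (cn τ.κ 2) f from Or.inr (add_comm (cn τ.κ 2) _ ▸ hf))
    rwa [(ax.uni.term ax.res h.ff m.term o).1] at this)
  obtain ⟨β, rβ, u⟩ := rk τ o (Or.inr (by linarith [h.cf] : dsc 3 Γ τ < 0).ne)
  have z := hor ax.a1 ax.a3 h.ff m o u hf
  obtain ⟨u, c, hc⟩ := u
  exact ⟨Y, G, B, ε⁻¹ • mx s, β, -c, ⟨h.ff, m, rG, (smp_mx s).smul e'.le, dB.smul _,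
    by rw [dim_smul e', hs.dim_eq]; exact h.dm, h.des.car, bd, h.klt, a, b, o, h.cf, rβ, u,
    by rwa [neg_smul, ← sub_eq_add_neg], z⟩, Nat.le_of_lt_succ (Lk.dim_lt ax.fld h.ff m.smp m.nb)⟩

end Vale.Agent.P287D.Oe
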