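import Vale.Agent.P287D.Mm.St
import Vale.Agent.P287D.Ru.St
import Vale.Agent.P287D.Hd.St
import Vale.Agent.P287D.Ad.Eff
import Vale.Agent.P287D.Pg.Uni
import Vale.Agent.P287D.Sf.Df
import Vale.Agent.P287D.Sh.St

/-!
# P287D, the three ends of the local argument (statements)
-/

set_option linter.unusedVariables false

open Set

noncomputable section

namespace Vale.Agent.P287D.Oe

section defs

variable {K : Type} [Field K] [Algebra ℂ K]

/-- the output of the tracking: a klt threefold pair which is anti-ample over `V T`, of dimension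
at most one, and a component `τ` of the boundary with a coefficient `> 1 / 2` -/
structure Ou (τ : Pl K) (X Γ T : BD K) : Prop where
  ff : FF K 3
  smp : Smp X
  big : Big X
  des : Dsc X Γ
  bdy : Bdy 2 X Γ
  klt : Klt 3 Γ
  on : On 2 X τ
  cf : dsc 3 Γ τ < -1 / 2
  sT : Smp T
  dT : Dsc X T
  dm : dim T ≤ 1
  amp : AmpOn X (T - Γ)

/-- the same on a Mori fibre space `V Y → V B` over `V T`; `G` is the canonical divisor and `β`
the pull back of the horizontal surface `τ`, which is `- s G` over the base -/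
structure Fm (τ : Pl K) (Y G B T Γ β : BD K) (s : ℝ) : Prop where
  ff : FF K 3
  mf : Mm.Mf 2 Y G B
  rG : CarQ G
  sT : Smp T
  dT : Dsc B T
  dm : dim T ≤ 1
  car : Γ ∈ Car K
  bdy : Bdy 2 Y Γ
  klt : Klt 3 Γ
  smp : Smp (T - Γ)
  big : Big (T - Γ)
  on : On 2 Y τ
  cf : dsc 3 Γ τ < -1 / 2
  rβ : CarQ β
  hull : Hull 2 Y τ.δ β
  rk : Dsc B (β + s • G)
  hor : Hor (fld B) τ

end defs

/-- a statement for all large degrees and all surfaces of type S in threefolds -/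
def ForE (A : ∀ (K : Type) [Field K] [Algebra ℂ K], Pl K → Prop) : Prop :=
  ∃ d₀ : ℕ, ∀ d, d₀ ≤ d → ∀ (K : Type) [Field K] [Algebra ℂ K] (τ : Pl K), A K τ →
    ∀ H f, ¬ IsS d τ.κ H f

/-- **ENDS** -/
def ENDS : Prop := ForE fun K _ _ τ => ∃ X Γ T, Ou τ X Γ T

/-- **END j**: the base of the Mori fibre space has dimension `j` -/
def End (j : ℕ) : Prop := ForE fun K _ _ τ => ∃ Y G B T Γ β s, Fm τ Y G B T Γ β s ∧ dim B = j

/-- **RED**: the reduction to a Mori fibre space -/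
def RED : Prop := ∀ (K : Type) [Field K] [Algebra ℂ K] (τ : Pl K) (X Γ T : BD K) (f : τ.κ),
  Ou τ X Γ T → f ≠ 0 → 0 ≤ cn τ.κ 2 + dv f →
    ∃ Y G B T' β s, Fm τ Y G B T' Γ β s ∧ dim B ≤ 2

/-- **VB n**: the volumes of canonical Fano varieties of dimension `n + 1` are bounded -/
def VB (n : ℕ) : Prop := ∃ v : ℝ, ∀ (K : Type) [Field K] [Algebra ℂ K], FF K (n + 1) →
  ∀ G : BD K, Smp (-G) → Big (-G) → 0 ≤ dsc (n + 1) G → Bdy n (-G) G → vol (n + 1) (-G) ≤ v

/-- **ITG**: on a terminal threefold, integral Weil divisors restrict to integral divisors -/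
def ITG : Prop := ∀ (K : Type) [Field K] [Algebra ℂ K], FF K 3 → ∀ (Y G β : BD K) (τ : Pl K),
  Term 2 Y G → On 2 Y τ → Dsc Y β → (∀ P, On 2 Y P → ∃ z : ℤ, β P = z) →
    ∀ Q, On 1 (res τ Y) Q → ∃ z : ℤ, res τ β Q = z

/-- **OVR**: a prime divisor of the base lies under a prime divisor of the total space -/
def OVR : Prop := ∀ (n m : ℕ) (K : Type) [Field K] [Algebra ℂ K] (L : IntermediateField ℂ K),
  FF K (n + 1) → FF L (m + 1) → ∀ (Y : BD K) (B : BD L), Smp Y → Big Y → Smp B → Big B →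
    Dsc Y (pb (inc L) B) → ∀ Q, On m B Q → ∃ P, On n Y P ∧ Lies (inc L) P Q

/-- the rows which are used -/
structure Ax : Prop where
  ffs : FFS
  mod : MOD
  res : RES
  int : INT
  vol : VOL
  neg : NEG
  fld : FLD
  pbk : PB
  gd : GD
  iso : ISO
  a1 : A1
  a2 : A2
  a3 : A3
  a4 : A4
  uni : UNI
  g1 : G1
  g1b : G1b
  g2 : G2
  g4 : G4
  g5 : G5
  g6 : G6
  rows : Sh.For2 fun L _ _ => Sf.Rows L

theorem isS_cn {d : ℕ} {L : Type} [Field L] [Algebra ℂ L] {H : BD L} {f : L} (h : IsS d L H f) :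
    0 ≤ cn L 2 + dv f := fun P => by
  by_cases k : On 1 H P
  · exact (h.on P k).ge
  · exact zero_le_one.trans (h.exc P k)

theorem ends_of (r : RED) (a : End 0) (b : End 1) (c : End 2) : ENDS := by
  obtain ⟨a₀, a⟩ := a
  obtain ⟨b₀, b⟩ := b
  obtain ⟨c₀, c⟩ := c
  refine ⟨a₀ + b₀ + c₀, fun d hd K _ _ τ ⟨X, Γ, T, h⟩ H f k => ?_⟩
  obtain ⟨Y, G, B, T', β, s, m, e⟩ := r K τ X Γ T f h k.ne (isS_cn k)
  obtain e | e | e : dim B = 0 ∨ dim B = 1 ∨ dim B = 2 := by omega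
  · exact a d (by omega) K τ ⟨Y, G, B, T', Γ, β, s, m, e⟩ H f k
  · exact b d (by omega) K τ ⟨Y, G, B, T', Γ, β, s, m, e⟩ H f k
  · exact c d (by omega) K τ ⟨Y, G, B, T', Γ, β, s, m, e⟩ H f k

end Vale.Agent.P287D.Oe
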