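import Vale.Agent.P287D.Oe.Red
import Vale.Agent.P287D.Sc.St
import Vale.Agent.P287D.Lc.St
import Vale.Agent.P287D.Gf.Res
import Vale.Agent.P287D.Pr.Lr
import Vale.Agent.P287D.Va.Des
import Vale.Agent.P287D.Pb.Res
import Vale.Agent.P287D.Iso.Can
import Vale.Agent.P287D.Sf.Nu

/-!
# P287D, the three ends: conic bundles
-/

open Set

noncomputable section

namespace Vale.Agent.P287D.Oe

variable {K : Type} [Field K] [Algebra ℂ K] {n : ℕ} {L : IntermediateField ℂ K} {P : Pl K}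

/-- the map of the base to the residue field of a horizontal place -/
def lA (h : Hor L P) : L →ₐ[ℂ] P.κ := { Gf.lK h with commutes' := fun _ => rfl }

theorem pg_im (h : Hor L P) (n : ℕ) : pg (P.im L) n = pg L n :=
  Semi.pg (φ := (Gf.eI h : L →+* P.im L))
    ⟨(Gf.eI h).surjective, fun c => ⟨c, rfl⟩, fun c => ⟨c, rfl⟩⟩ n

theorem ff_im (h : Hor L P) (hL : FF L n) : FF (P.im L) n :=
  Semi.ff (φ := (Gf.eI h : L →+* P.im L))
    ⟨(Gf.eI h).surjective, fun c => ⟨c, rfl⟩, fun c => ⟨c, rfl⟩⟩ hL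

/-- horizontal places of a fibration in curves are prime divisors -/
theorem on_of_hor (hK : FF K (n + 1)) (hL : FF L n) (h : Hor L P) {B : BD L} (hB : Smp B)
    (bB : Big B) : On n (pb (inc L) B) P := by
  have f := In.hy.rsd n K hK P
  have o := f.ok (lA h)
  refine (on_iff_big hK P ((hK.ok_sub L).smp hB).nef).2 ?_
  rw [(Cst.of_lin (φ := inc L) fun _ => rfl).res_trv res' hL hK h.trv (ρ := (lA h : L →+* P.κ))
    (Gf.lK_apply h) hB.car]
  refine (big_iff_fld (o.smp hB).eff).2 (top_unique fun x _ => (mem_fld_pb f (lA h) hB).2 ?_)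
  have e : (fld B).map (lA h) = P.im L := by
    rw [bB.fld_eq]
    exact IntermediateField.ext fun a => ⟨fun ⟨b, _, k⟩ => (Gf.mem_im h).2 ⟨b, k⟩, fun k =>
      let ⟨b, k⟩ := (Gf.mem_im h).1 k; ⟨b, trivial, k⟩⟩
  rw [e]
  have := Pb.fin_of_ff (ff_im h hL) f
  exact IsAlgebraic.of_finite _ x

theorem endC (sur : Sc.SURJ) (rul : RUL) (tri : TRI) (dgr : DGR) (con : CON) (en : Hd.END) :
    End 2 := by
  obtain ⟨d₀, en⟩ := en (1 / 12) (by norm_num)
  refine ⟨d₀, fun d hd K _ _ τ ⟨Y, G, B, T, Γ, β, s, m, e⟩ H f k => ?_⟩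
  have hK := m.ff
  have hL : FF (fld B) 2 := e ▸ ff_fld hK B
  have cL := cld_fld B
  have ok := hK.ok_sub (fld B)
  obtain ⟨B₀, sB, bB, pB⟩ := fld_down hK m.mf.smp
  have pB' : pb (inc _) B₀ - B ∈ Prn K := by simpa using neg_mem pB
  have dY := m.mf.des.congr pB'
  obtain ⟨N, dN, pN⟩ := (dsc_pb_iff hK cL).1 (m.dT.congr_left pB')
  obtain ⟨ε, ε0, D, rD⟩ := m.big.exists_eff m.mf.smp.car
  obtain ⟨δ₀, δ0, kl⟩ := Pr.klt_open hK m.car
    (Rep.car rD (sub_mem m.smp.car (Submodule.smul_mem _ ε m.mf.smp.car))) m.klt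
  obtain ⟨δ, a0, a1, a2⟩ : ∃ δ : ℝ, 0 < δ ∧ δ ≤ 1 ∧ |δ| ≤ δ₀ := ⟨min 1 δ₀, lt_min one_pos δ0,
    min_le_left _ _, by rw [abs_of_pos (lt_min one_pos δ0)]; exact min_le_right _ _⟩
  have hor : ∀ P, Hor (fld B) P → dsc 3 Γ P ≤ 0 := fun P h =>
    m.bdy P (Pr.on_mono res' hK (ok.smp sB) m.mf.term.smp dY (on_of_hor hK hL h sB bB))
  obtain ⟨A, rA⟩ := m.smp.eff
  have pA : Γ + A - pb (inc _) N ∈ Prn K := by
    rw [show Γ + A - pb (inc _) N = A - (T - Γ) + (T - pb (inc _) N) by abel]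
    exact add_mem rA.2 pN
  have lA' : ∀ P, dsc 3 (Γ + A) P ≤ dsc 3 Γ P := fun P => by
    rw [Pr.dsc_add]; exact sub_le_self _ (rA.1 P)
  have lD : ∀ P, dsc 3 (Γ + δ • D) P ≤ dsc 3 Γ P := fun P => by
    rw [Pr.dsc_add_smul]; exact sub_le_self _ (mul_nonneg a0.le (rD.1 P))
  have hA := fun P h => (lA' P).trans (hor P h)
  have r : Rp 2 (fld B) (Γ + δ • D) ((1 - δ) • (T - Γ)) (N - (δ * ε) • B₀) :=
    ⟨hK, hL, cL, con 2 K _ _ N hK hL cL pA hA ⟨τ, m.hor, by linarith [lA' τ, m.cf]⟩,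
      m.smp.smul (sub_nonneg.2 a1), by
        rw [pb_sub, pb_smul, show Γ + δ • D + (1 - δ) • (T - Γ) - (pb (inc _) N -
          (δ * ε) • pb (inc _) B₀) = δ • (D - (T - Γ - ε • B)) + (T - pb (inc _) N) +
          (δ * ε) • (pb (inc _) B₀ - B) by module]
        exact add_mem (add_mem (Submodule.smul_mem _ _ rD.2) pN) (Submodule.smul_mem _ _ pB'),
      fun P h => (lD P).trans (hor P h), fun P _ => (kl δ a2 P).le⟩
  have ov : ∀ Q, On 1 B₀ Q → ∃ P, Lies (inc _) P Q ∧ dsc 3 (Γ + δ • D) P ≤ 0 := fun Q q =>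
    let ⟨P, a, b⟩ := sur 2 1 K _ Y B₀ Q hK hL cL m.mf.term.smp m.mf.term.big sB bB dY q
    ⟨P, a, (lD P).trans (m.bdy P b)⟩
  have nn : ∀ Z, Rz 2 (fld B) (Γ + δ • D) (N - (δ * ε) • B₀) Z → ∀ Q, On 1 B₀ Q → 0 ≤ Z Q :=
    fun Z z Q q => by
      obtain ⟨P, a, b⟩ := ov Q q
      have c : (1 : ℝ) ≤ P.ord (inc _ Q.t) := by exact_mod_cast a.e_pos
      exact nonneg_of_mul_nonneg_right (by linarith [z.ge P Q a]) (by linarith)
  have fin : ∀ Z W, Rz 2 (fld B) (Γ + δ • D) (N - (δ * ε) • B₀) Z → Psef (cn (fld B) 2 + W) →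
      (∀ Q, On 1 B₀ Q → W Q ≤ Z Q) → False := fun Z W z p w => by
    have η0 : 0 < δ * ε / 2 := by positivity
    obtain ⟨E, rE⟩ := (psef_iff bB sB.car).1 p _ η0
    have q : E + (Z - W) - (N - (δ * ε / 2) • B₀) ∈ Prn (fld B) := by
      rw [show E + (Z - W) - (N - (δ * ε / 2) • B₀) = E - (cn (fld B) 2 + W + (δ * ε / 2) • B₀) +
        (Z - (N - (δ * ε) • B₀ - cn (fld B) 2)) by module]
      exact add_mem rE.2 z.prn
    have u : Eff (N - (δ * ε / 2) • B₀) := ⟨_, Pr.hart res' hL sB bB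
      ((dN.sub ((Dsc.refl sB).smul _)).congr q)
      fun Q o => add_nonneg (rE.1 Q) (sub_nonneg.2 (w Q o)), q⟩
    have v : Eff (T - (δ * ε / 2) • B) := (ok.eff u).congr (by
      rw [pb_sub, pb_smul, show T - (δ * ε / 2) • B - (pb (inc _) N - (δ * ε / 2) • pb (inc _) B₀) =
        T - pb (inc _) N + (δ * ε / 2) • (pb (inc _) B₀ - B) by module]
      exact add_mem pN (Submodule.smul_mem _ _ pB'))
    linarith [dim_mono hK (fld_le_of_eff η0 v), m.dm]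
  have g := (dgr 2 K _ _ N hK hL cL r.con pA hA).2 {τ} (by simpa using m.hor)
  rw [Finset.sum_singleton] at g
  have := Pb.fin_of_ff (ff_im m.hor hL) k.ff
  have g0 : 0 < Module.finrank (τ.im (fld B)) τ.κ := Module.finrank_pos
  by_cases c : 3 ≤ Module.finrank (τ.im (fld B)) τ.κ
  · obtain ⟨Z, z, b⟩ := tri 2 K _ _ _ _ r τ (Gf.lK m.hor) m.hor (Gf.lK_apply m.hor) c
      ((lD τ).trans_lt m.cf)
    let : Algebra (fld B) τ.κ := (Gf.lK m.hor).toAlgebra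
    have : IsScalarTower ℂ (fld B) τ.κ := .of_algebraMap_eq fun _ => rfl
    refine fin Z _ z (en d hd (fld B) τ.κ hL ?_ H f k) fun Q q => ?_
    · rw [Algebra.finrank_eq_of_equiv_equiv (Gf.eI m.hor) (RingEquiv.refl τ.κ) rfl]
      by_contra u
      have : (120 : ℝ) < Module.finrank (τ.im (fld B)) τ.κ := by exact_mod_cast not_le.1 u
      nlinarith [lA' τ, m.cf]
    · simp only [Pi.smul_apply, Hd.Br, smul_eq_mul]
      split_ifs with u
      · obtain ⟨R, u, v⟩ := u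
        obtain ⟨P, x, y⟩ := ov Q q
        simpa using b P Q R x u v y
      · simpa using nn Z z Q q
  · obtain ⟨Z, z⟩ := rul 2 K _ _ _ _ r
    refine fin Z 0 z (by
      rw [add_zero]
      refine (Sf.eff_of_pg (n := 2) ?_).psef
      rw [← pg_im m.hor]
      obtain u | u : Module.finrank (τ.im (fld B)) τ.κ = 1 ∨
        Module.finrank (τ.im (fld B)) τ.κ = 2 := by omega
      · rw [← Semi.pg (φ := inc (τ.im (fld B))) ⟨fun x => ?_, fun c => ⟨c, rfl⟩,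
          fun c => ⟨c, rfl⟩⟩ 2]
        · exact k.pg_ne Ba.mod
        · exact (IntermediateField.finrank_eq_one_iff_eq_top.1 u ▸ ⟨⟨x, trivial⟩, rfl⟩)
      · exact k.inv _ u) (nn Z z)

theorem lc_ends (h : ENDS) : Lc.ENDS :=
  let ⟨d₀, h⟩ := h
  ⟨d₀, fun d hd W _ _ hW τ X Γ T o => h d hd W τ ⟨X, Γ, T, hW, o.smp, o.big, o.des, o.bdy, o.klt,
    o.on, o.half, o.smp0, o.des0, o.dim, o.amp⟩⟩

end Vale.Agent.P287D.Oe
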