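import Vale.Agent.P287D.Oe.B
import Vale.Agent.P287D.Oe.C
import Vale.Agent.P287D.Ea.End
import Vale.Agent.P287D.En.End
import Vale.Agent.P287D.Api.Adj
import Vale.Agent.P287D.On.Fld
import Vale.Agent.P287D.Ru.Main
import Vale.Agent.P287D.Ru.Dgr
import Vale.Agent.P287D.Sc.Sur

/-!
# P287D, the three ends: the assembly
-/

namespace Vale.Agent.P287D.Oe

theorem ax : Ax := ⟨Api.ffs, Api.mod, res', Api.int, Api.vol, Api.neg, fld', Api.pb, Api.gd,
  Api.iso, a1, a2, a3, a4, Api.uni, g1, g1b, g2, g4, Api.g5, Api.g6, Api.rows⟩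

theorem ends_all (tri : TRI) (trm : Mm.TRM) (v2 : Su.VOL2) (v3 : Sc.VOL3) : Lc.ENDS :=
  lc_ends (ends_of (red ax Api.mfs) (Ea.end0_of ax v3 trm) (endB ax (vb1_of v2))
    (endC Sc.surj rul tri dgr con (En.end_of v2)))

end Vale.Agent.P287D.Oe
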