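import Vale.Agent.P287D.Oe.Red
import Vale.Agent.P287D.Ea.A
import Vale.Agent.P287D.Gf.Six
import Vale.Agent.P287D.Gf.Key
import Vale.Agent.P287D.Cv.Deg
import Vale.Agent.P287D.Sf.Row
import Vale.Agent.P287D.Sf.Kl
import Vale.Agent.P287D.Su.St
import Vale.Agent.P287D.Pb.Deg
import Vale.Agent.P287D.Va.Des

/-!
# P287D, the three ends: del Pezzo fibrations
-/

open Set

noncomputable section

namespace Vale.Agent.P287D.Oe

variable {K : Type} [Field K] [Algebra ℂ K] {L : IntermediateField ℂ K} {Y G A F Z Z' γ γ' : BD K}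

/-- intersection numbers on the fibre `F` -/
abbrev J (F Z γ : BD K) : ℝ := I 3 K (Fin.cons Z (Fin.cons γ fun _ => F))

theorem J_car {p : BD K → Prop} (h : p γ) (h' : p F) :
    ∀ i, p ((Fin.cons γ fun _ => F : Fin 2 → BD K) i) := In.cons_mem h fun _ => h'

theorem J_lin (hK : FF K 3) (hF : F ∈ Car K) (h : Z ∈ Car K) (h' : Z' ∈ Car K) (hγ : γ ∈ Car K)
    (c : ℝ) : J F (c • Z + Z') γ = c * J F Z γ + J F Z' γ := by
  rw [J, In.hy.cons_add hK (In.hy.isb _ K hK _ (Submodule.smul_mem _ c h)) (In.hy.isb _ K hK _ h')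
    (J_car (p := (· ∈ Car K)) hγ hF), In.cons_smul]

theorem J_swap (hK : FF K 3) (hF : F ∈ Car K) (h : Z ∈ Car K) (hγ : γ ∈ Car K) :
    J F Z γ = J F γ Z := In.hy.swap hK h hγ fun _ => hF

theorem J_low (hK : FF K 3) (hL : FF L 1) {F₀ D₀ : BD L} (hF : F₀ ∈ Car L) (hD : D₀ ∈ Car L)
    (e : Z - pb (inc L) D₀ ∈ Prn K) (hγ : γ ∈ Car K) : J (pb (inc L) F₀) Z γ = 0 := by
  have o := hK.ok_sub L
  have c := J_car (p := (· ∈ Car K)) hγ (o.car hF)
  rw [J, In.hy.cons_congr hK (In.hy.isb _ K hK _ (o.car hD)) e c]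
  refine Pb.low In.hy res' 3 1 L K (inc L) hL hK (Cst.of_lin fun _ => rfl) _ {0, 2} (by decide)
    (fun j _ => In.cons_mem (p := (· ∈ Car K)) (o.car hD) c j) fun j hj => ?_
  rcases Finset.mem_insert.1 hj with rfl | hj
  · exact ⟨D₀, hD, rfl⟩
  · rw [Finset.mem_singleton.1 hj]
    exact ⟨F₀, hF, rfl⟩

theorem J_δ (τ : Pl K) : J F τ.δ γ = I2 (res τ γ) (res τ F) := by
  rw [J, In.I_δ, In.cf]
  exact congrArg _ (funext fun i => by fin_cases i <;> rfl)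

/-- the degree of the general fibre is bounded -/
theorem J_le (ax : Ax) {v : ℝ} (hv : ∀ (K : Type) [Field K] [Algebra ℂ K], FF K (1 + 1) →
    ∀ G : BD K, Smp (-G) → Big (-G) → 0 ≤ dsc (1 + 1) G → Bdy 1 (-G) G → vol (1 + 1) (-G) ≤ v)
    (hK : FF K 3) (hL : FF L 1) (cL : Cld L) (t : Term 2 Y G) {B₀ N : BD L} (sB : Smp B₀)
    (bB : Big B₀) (d : Dsc Y (pb (inc L) B₀)) (a : AmpOn Y A)
    (e : A + G - pb (inc L) N ∈ Prn K) (p : Pl L) : J (pb (inc L) p.δ) A A ≤ v := by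
  obtain ⟨K', _, _, φ, g⟩ := ax.g1 K L cL ⟨1, hL⟩
  have g' : GFd 1 2 L φ := ⟨g, hK, hL⟩
  have h' := (ax.g1b 1 2 K K' L φ g').1
  have o := g.toExt.ok h'
  obtain ⟨f, -, hf⟩ := ax.g4 1 2 K K' L φ g'
  obtain ⟨l, l', -⟩ := ax.g2 1 2 K K' L φ g'
  have q : -(pb φ G + dv f) - pb φ A ∈ Prn K' := by
    have := o.prn e
    rw [pb_sub, pb_add, Gx.pb_base g.toExt o] at this
    rw [show -(pb φ G + dv f) - pb φ A = -(pb φ A + pb φ G - 0) - dv f by abel]
    exact sub_mem (neg_mem this) (dv_mem_Prn f)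
  have a' := (o.ampOn a).congr q
  have z : ∀ P Q, Lies φ P Q → dsc (1 + 1) (pb φ G + dv f) P = dsc 3 G Q := fun P Q k => by
    simp [dsc, hf, (l' P Q k).2.2.1]
  have := ax.g5 1 2 K K' L φ g' (fun _ => A) (fun _ => p.δ) (fun _ _ => a.car)
    fun _ => CarZ.car (Cv.δ_carZ hL p)
  refine (this.trans ?_).trans_le (hv K' h' _ a'.smp
    ((Gx.big_pb o g.gen (a.big_iff.1 t.big)).congr q) (fun P => ?_) fun P k => ?_)
  · exact (congrArg₂ (· * ·) (Cv.I1_δ p)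
      (Pb.I_congr In.hy h' (fun _ => o.car a.car) fun _ => q).symm).trans (one_mul _)
  · obtain ⟨Q, k⟩ := l P
    rw [z P Q k]
    by_cases u : On 2 Y Q
    · exact (sub_eq_zero.2 (t.hull.2 Q u).symm).ge
    · exact (t.pos Q u).le
  · obtain ⟨Q, u⟩ := l P
    rw [z P Q u]
    exact (sub_eq_zero.2 (t.hull.2 Q ((((ax.g6 1 2 K K' L φ g' B₀ sB bB).2.2.2 Y t.smp d).2.2 1 P Q
      rfl u).1 ((Pr.on_iff res' h' a'.smp_left a').2 k))).symm).le

theorem endB (ax : Ax) (hV : VB 1) : End 1 := by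
  obtain ⟨v, hv⟩ := hV
  refine ⟨⌊(2 * v) ^ 2⌋₊ + 1, fun d hd K _ _ τ ⟨Y, G, B, T, Γ, β, s, m, e⟩ H f k => ?_⟩
  have hK := m.ff
  have hL : FF (fld B) 1 := e ▸ ff_fld hK B
  have cL := cld_fld B
  have ok := hK.ok_sub (fld B)
  have t := m.mf.term
  obtain ⟨B₀, sB, bB, pB⟩ := fld_down hK m.mf.smp
  have pB' : pb (inc _) B₀ - B ∈ Prn K := by simpa using neg_mem pB
  obtain ⟨p⟩ := Cv.ne_pl hL
  have pZ := Cv.δ_carZ hL p
  have pC := CarZ.car pZ
  have sF := ok.smp (Cv.smp_of_pos hL pC (by rw [Cv.I1_δ]; exact one_pos))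
  have dF := (m.mf.des.congr pB').trans
    (ok.dsc (Cv.dsc_of_pos hL sB.car ((Cv.big_iff hL sB.car).1 bB) pC))
  have lo : ∀ D, Dsc B D → ∀ γ ∈ Car K, J (pb (inc _) p.δ) D γ = 0 := fun D h γ hγ =>
    let ⟨_, a, b⟩ := h.down hK le_rfl
    J_low hK hL pC a b hγ
  obtain ⟨c, a⟩ := m.mf.amp
  have dB := Dsc.refl m.mf.smp
  obtain ⟨N, -, hN⟩ := (dB.smul c).down hK le_rfl
  have b := J_le ax hv hK hL cL t sB bB (m.mf.des.congr pB') a (N := N) (by simpa using hN) p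
  have li : ∀ (x : ℝ) D, Dsc B D → ∀ γ ∈ Car K, J (pb (inc _) p.δ) (x • (c • B - G) + D) γ =
      x * J (pb (inc _) p.δ) (c • B - G) γ := fun x D h γ hγ => by
    rw [J_lin hK sF.car a.car h.car hγ, lo D h γ hγ, add_zero]
  have tr : ∀ γ, Dsc Y γ → J (pb (inc _) p.δ) τ.δ γ = s * J (pb (inc _) p.δ) (c • B - G) γ :=
    fun γ h => by
      rw [← li s _ (m.rk.sub (dB.smul (s * c))) γ h.car, show s • (c • B - G) +
        (β + s • G - (s * c) • B) = β by module]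
      exact (In.hy.cons_trace hK t.smp (J_car h dF) m.hull.2).symm
  have nb := J_car (p := fun x => Nef x ∧ Dsc Y x) ⟨a.nef, a.1⟩ ⟨sF.nef, dF⟩
  have cb := J_car (p := (· ∈ Car K)) a.car sF.car
  have i := In.hy.isb _ K hK
  have h0 := In.hy.cons_nn hK (i _ a.car) a.nef.psef fun j => (nb j).1
  have h1 := Ea.trace_nn In.hy hK t.smp nb (Z := τ.δ) fun P _ => τ.δ_nonneg P
  have h2 := In.hy.cons_nn hK (i _ m.smp.car) m.smp.psef fun j => (nb j).1
  have h3 := Ea.trace_nn In.hy hK t.smp nb (Z := Γ - G - (1 / 2 : ℝ) • τ.δ) fun P o => by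
    have x := m.bdy P o
    have y := m.cf
    by_cases u : P = τ
    · subst u
      simp only [dsc, Pi.sub_apply, Pi.smul_apply, Pl.δ_self, t.hull.2 P o, smul_eq_mul] at x y ⊢
      linarith
    · simpa [dsc, Pl.δ_ne u, t.hull.2 P o] using x
  have cG := t.hull.1.car
  have h4 := li (-1) _ (dB.smul c) _ a.car
  rw [show (-1 : ℝ) • (c • B - G) + c • B = G by module] at h4
  rw [In.hy.cons_sub hK (i _ m.dT.car) (i _ m.car) cb] at h2
  rw [In.hy.cons_sub hK (i _ (sub_mem m.car cG)) (In.IsB.smul (In.isB_δ τ) _) cb,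
    In.hy.cons_sub hK (i _ m.car) (i _ cG) cb, In.cons_smul] at h3
  have h5 := lo T m.dT _ a.car
  have h6 := tr _ a.1
  have dG := t.hull.1.add m.hull.1
  have h7 := tr _ dG
  rw [J_swap hK sF.car a.car dG.car, show G + β = (s - 1) • (c • B - G) +
    (β + s • G - ((s - 1) * c) • B) by module, li _ _ (m.rk.sub (dB.smul _)) _ a.car,
    show (s - 1) • (c • B - G) + (β + s • G - ((s - 1) * c) • B) = G + β by module, J_δ] at h7
  have R := k.rows
  have d0 : 0 < d := by omega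
  have ps := k.ps R d0
  have sC := In.hy.res_smp hK τ sF
  have nC := R.nn_smp sC
  obtain ⟨ca, pa, -⟩ := ax.a1 2 K hK τ _ dG.car
  have h8 := R.mono_l R.cnb (R.isb _ ca) nC fun P x => sub_nonpos.1 (adj_bdy ax.a3 hK t m.on m.hull P
    (Sf.on_iff.2 ((Sf.det_of_dsc k.ff (In.hy.res_smp hK τ t.smp) (In.hy.res_dsc hK τ dF)).pos
      (R.nn_smp (In.hy.res_smp hK τ t.smp)) x.ne')))
  rw [R.congr_l (R.isb _ (In.res_car τ _)) pa sC.car, h7] at h8
  have h9 := ps.cn_nn R nC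
  have eC := (Cst.of_lin (φ := inc (fld B)) fun _ => rfl).res_trv res' hL hK m.hor.trv
    (Gf.lK_apply m.hor) pC
  obtain ⟨Q, hQ⟩ := Pb.up (φ := Gf.lK m.hor) (fun _ => rfl) k.ff p
  obtain ⟨u, -, -, -, o, -⟩ := ax.mod.ex 1 τ.κ k.ff {Q} ∅ (finite_singleton Q) finite_empty
    (empty_subset _)
  have nu := R.nn_smp (smp_mx u)
  have c0 : 0 ≤ res τ (pb (inc _) p.δ) := eC ▸ pb_nonneg _ p.δ_nonneg
  have pe := ps.pen R nC (pq rfl) (fun P _ => CarZ.int (In.hy.res_carZ hK τ (ok.carZ pZ)) P) nu.car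
    ((mul_pos (by rw [eC, hQ.pb, Pl.δ_self, mul_one]; exact_mod_cast hQ.e_pos)
      (Sf.on_iff.1 (o Q rfl))).trans_le
      (R.le_I2 (R.isb _ sC.car) nu.car (fun P => mul_nonneg (c0 P) (nu.nn P)) Q)).ne'
  have sq : I2 (res τ (pb (inc _) p.δ)) (res τ (pb (inc _) p.δ)) = 0 := by
    rw [← J_δ, tr _ dF, J_swap hK sF.car a.car sF.car, J_low hK hL pC pC (pq rfl) a.car, mul_zero]
  simp only [J] at b h4 h5 h6 h8
  generalize I 3 K (Fin.cons (c • B - G) (Fin.cons (c • B - G) fun _ => pb (inc _) p.δ)) = w at *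
  have w2 : s * ((s - 1) * w) ≤ 2 * v := by
    rcases h0.eq_or_lt with z | z
    · rw [← z] at b ⊢
      linarith
    · have : 0 ≤ s := nonneg_of_mul_nonneg_left (by linarith) z
      have : s ≤ 2 := le_of_mul_le_mul_right (by linarith) z
      nlinarith [mul_nonneg z.le (mul_nonneg (sub_nonneg.2 this) (by linarith : 0 ≤ s + 1))]
  rw [sq, zero_add] at pe
  exact absurd (Nat.le_floor (k.deg.trans (pe.trans (pow_le_pow_left₀ h9 (h8.trans w2) 2))))
    (by omega)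

theorem vb1_of (h : Su.VOL2) : VB 1 :=
  ⟨9, fun K _ _ hK G s b d o => (h K hK G s.nef b d o).2⟩

end Vale.Agent.P287D.Oe
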